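import Vale.Agent.P032.H89.Rules

/-!
# P032: rules between the joint states at one base (wild frame): (carry), (R7), (R9), (node)

The states of H89 (`st T z s τ`, `JGen T z s τ`) at the base `s`.
* `jgen_open`, `jgen_dense` : the jointly generic times are open and dense.
* `r7` : `q` a limit of points of `S(p)` with the palette `Y` along `S(p)`: no point `x` of `S(q)` off
  the line `p q` has its palette inside `Y`.
* `r9` : two such limits `r1`, `r2` on `S(q)`, not antipodal: `T q` is not inside `Y1 ∪ Y2`.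
* `carry` : a colour which is in the palettes of all generic points of `S(p)` on both sides of `q`
  is absent at the points of `S(q)` off the line `p q`.
-/

open Set Filter Topology Metric

noncomputable section

namespace Vale.Agent.P032.H93

open Vale.Agent.P032.Six Vale.Agent.P032.S5.H767 Vale.Agent.P032.H89

variable {U : Fin 6 → Set ℂ} {T : ℂ → Set (Fin 6)} {z : ℂ}

/-! ### Jointly generic times -/

theorem lc_open {p : ℂ} {t : ℝ} (h : Lc T p t) : ∀ᶠ v in 𝓝 t, Lc T p v := by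
  have h1 : ∀ᶠ v in 𝓝 t, ∀ᶠ w in 𝓝 v, T (pt p w) = T (pt p t) := eventually_eventually_nhds.2 h
  filter_upwards [h1, (show ∀ᶠ v in 𝓝 t, T (pt p v) = T (pt p t) from h)] with v hv hv'
  show ∀ᶠ w in 𝓝 v, T (pt p w) = T (pt p v)
  rw [hv']
  exact hv

theorem gen_iff {p : ℂ} {t : ℝ} : Gen T p t ↔ ∀ j : Fin 6, Lc T p (t + ((j.val : ℤ) : ℝ)) := by
  refine ⟨fun h j => h _, fun h k => ?_⟩
  have h1 := h ⟨(k % 6).toNat, by omega⟩
  have h2 : (((k % 6).toNat : ℤ)) = k % 6 := Int.toNat_of_nonneg (by omega)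
  have h3 := lc_int (T := T) (z := p) (k / 6) h1
  have e : t + ((((⟨(k % 6).toNat, by omega⟩ : Fin 6).val : ℤ)) : ℝ) + 6 * ((k / 6 : ℤ) : ℝ) =
      t + (k : ℝ) := by
    have h4 : k = (((k % 6).toNat : ℤ)) + 6 * (k / 6) := by omega
    have h5 : (k : ℝ) = (((((k % 6).toNat : ℤ)) + 6 * (k / 6) : ℤ) : ℝ) := by exact_mod_cast h4
    rw [h5]
    push_cast
    ring
  rwa [e] at h3

theorem gen_isOpen (T : ℂ → Set (Fin 6)) (p : ℂ) : IsOpen {t | Gen T p t} := by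
  rw [isOpen_iff_mem_nhds]
  intro t ht
  have h1 : ∀ᶠ v in 𝓝 t, ∀ j : Fin 6, Lc T p (v + ((j.val : ℤ) : ℝ)) := by
    refine eventually_all.2 fun j => ?_
    have h2 : Continuous fun v : ℝ => v + ((j.val : ℤ) : ℝ) := by fun_prop
    exact (h2.tendsto t).eventually (lc_open (ht j.val))
  filter_upwards [h1] with v hv
  exact gen_iff.2 hv

theorem gen_dense (h : Irr U T) (p : ℂ) : Dense {t | Gen T p t} := by
  rw [dense_iff_inter_open]
  intro O hO hne
  exact gen_exists h p hO hne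

theorem jgen_isOpen (T : ℂ → Set (Fin 6)) (z : ℂ) (s : ℝ) : IsOpen {t | JGen T z s t} := by
  have e : {t | JGen T z s t} = ⋂ p, {t | Gen T (npt z s p) t} := by
    ext t; simp [JGen]
  rw [e]
  exact isOpen_iInter_of_finite fun p => gen_isOpen T _

/-- **Jointly generic times are dense.** -/
theorem jgen_dense (h : Irr U T) (z : ℂ) (s : ℝ) : Dense {t | JGen T z s t} := by
  have e : {t | JGen T z s t} = ⋂ p, {t | Gen T (npt z s p) t} := by
    ext t; simp [JGen]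
  rw [e]
  exact dense_iInter_of_isOpen (fun p => gen_isOpen T _) fun p => gen_dense h _

/-! ### (R7) -/

/-- a palette which occurs at generic times near `s` -/
theorem mem_closure_ex {p : ℂ} {s d : ℝ} {Y : Set (Fin 6)}
    (hY : ∃ᶠ τ in 𝓝 s, Lc T p (τ + d) ∧ T (pt p (τ + d)) = Y) :
    pt p (s + d) ∈ closure (Ex T p Y) := by
  have h1 : Tendsto (fun τ : ℝ => pt p (τ + d)) (𝓝 s) (𝓝 (pt p (s + d))) := by
    have h2 : Continuous fun τ : ℝ => pt p (τ + d) := (continuous_pt p).comp (by fun_prop)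
    exact h2.tendsto s
  refine mem_closure_of_frequently_of_tendsto (hY.mono fun τ hτ => ?_) h1
  refine ⟨dist_pt _ _, ?_⟩
  filter_upwards [Lc.circ hτ.1] with q hq
  rw [hq, hτ.2]

/-- **(R7)** -/
theorem r7 (h : Irr U T) {p q x : ℂ} {Y : Set (Fin 6)} (hY : q ∈ closure (Ex T p Y))
    (hx : dist x q = 1) (h1 : x ≠ p) (h2 : x + p ≠ 2 * q) : ¬ T x ⊆ Y := by
  intro hsub
  have ht : Tendsto (fun y : ℂ => x + y - q) (𝓝 q) (𝓝 x) := by
    have hc : Continuous fun y : ℂ => x + y - q := by fun_prop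
    have := hc.tendsto q
    rwa [add_sub_cancel_right] at this
  have ht3 : Tendsto (fun y : ℂ => x - q + p - y) (𝓝 q) (𝓝 (x - q + p - q)) := by
    have hc : Continuous fun y : ℂ => x - q + p - y := by fun_prop
    exact hc.tendsto q
  have hne3 : x - q + p - q ≠ 0 := fun h3 => h2 (by linear_combination h3)
  have e1 : ∀ᶠ y in 𝓝 q, T (x + y - q) ⊆ T x := ht.eventually (h.nhd x)
  have e2 : ∀ᶠ y in 𝓝 q, x + y - q ≠ p := ht.eventually_ne h1
  have e3 : ∀ᶠ y in 𝓝 q, x - q + p - y ≠ 0 := ht3.eventually_ne hne3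
  obtain ⟨y, ⟨⟨hy1, hy2⟩, hy3⟩, hyE⟩ := mem_closure_iff_nhds.1 hY _ ((e1.and e2).and e3)
  obtain ⟨c, hc⟩ := h.ne (x + y - q)
  have hcY : c ∈ Y := hsub (hy1 hc)
  refine line_free h hyE.1 ?_ ?_ hy2 (fun h4 => hy3 (by linear_combination h4)) (h.sub _ hc)
  · filter_upwards [hyE.2] with r hr
    rw [hr]; exact hcY
  · rw [dist_eq_norm] at hx ⊢
    rw [← hx, ← norm_neg]; congr 1; ring

/-- **(R7) for letters**: `Y` occurs on `S(p)` at generic times arbitrarily near `s` (direction `d`),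
`X` is the palette of a point of the circle about `q = pt p (s + d)`. -/
theorem r7_time (h : Irr U T) {p : ℂ} {s d : ℝ} {Y : Set (Fin 6)}
    (hY : ∃ᶠ τ in 𝓝 s, Lc T p (τ + d) ∧ T (pt p (τ + d)) = Y) {t : ℝ}
    (h1 : pt (pt p (s + d)) t ≠ p) (h2 : pt (pt p (s + d)) t + p ≠ 2 * pt p (s + d)) :
    ¬ T (pt (pt p (s + d)) t) ⊆ Y :=
  r7 h (mem_closure_ex hY) (dist_pt _ _) h1 h2

/-! ### (R9) -/

/-- **(R9)**, the base form: neither centre is `q` -/
theorem r9 (h : Irr U T) {q r1 r2 p1 p2 : ℂ} {Y1 Y2 : Set (Fin 6)} (hr1 : dist r1 q = 1)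
    (hr2 : dist r2 q = 1) (hne : r1 ≠ r2) (hna : r1 + r2 ≠ 2 * q)
    (hY1 : r1 ∈ closure (Ex T p1 Y1)) (hY2 : r2 ∈ closure (Ex T p2 Y2))
    (a1 : q ≠ p1) (b1 : q + p1 ≠ 2 * r1) (a2 : q ≠ p2) (b2 : q + p2 ≠ 2 * r2) :
    ¬ T q ⊆ Y1 ∪ Y2 := by
  intro hsub
  -- the crossing point depends on two centres
  obtain ⟨θ, hθ⟩ := exists_cis (u := q - r2) (by rw [← dist_eq_norm, dist_comm]; exact hr2)
  have hqθ : r2 + cis θ = q := by rw [← hθ]; ring
  -- a small neighbourhood of `q`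
  have n1 : ∀ᶠ x in 𝓝 q, T x ⊆ T q := h.nhd q
  have n2 : ∀ᶠ x in 𝓝 q, x ≠ p1 ∧ x ≠ p2 := (eventually_ne_nhds a1).and (eventually_ne_nhds a2)
  have cont1 : Tendsto (fun w : ℂ × ℂ => w.1 + p1 - 2 * w.2) (𝓝 (q, r1)) (𝓝 (q + p1 - 2 * r1)) := by
    have hc : Continuous fun w : ℂ × ℂ => w.1 + p1 - 2 * w.2 := by fun_prop
    exact hc.tendsto (q, r1)
  have cont2 : Tendsto (fun w : ℂ × ℂ => w.1 + p2 - 2 * w.2) (𝓝 (q, r2)) (𝓝 (q + p2 - 2 * r2)) := by
    have hc : Continuous fun w : ℂ × ℂ => w.1 + p2 - 2 * w.2 := by fun_prop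
    exact hc.tendsto (q, r2)
  have m1 : ∀ᶠ w in 𝓝 (q, r1), w.1 + p1 - 2 * w.2 ≠ 0 :=
    cont1.eventually_ne (fun h3 => b1 (by linear_combination h3))
  have m2 : ∀ᶠ w in 𝓝 (q, r2), w.1 + p2 - 2 * w.2 ≠ 0 :=
    cont2.eventually_ne (fun h3 => b2 (by linear_combination h3))
  rw [nhds_prod_eq] at m1 m2
  obtain ⟨A1, hA1, B1, hB1, hm1⟩ := eventually_prod_iff.1 m1
  obtain ⟨A2, hA2, B2, hB2, hm2⟩ := eventually_prod_iff.1 m2
  have N : ∀ᶠ x in 𝓝 q, (T x ⊆ T q) ∧ (x ≠ p1 ∧ x ≠ p2) ∧ A1 x ∧ A2 x :=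
    n1.and (n2.and (hA1.and hA2))
  obtain ⟨V, hVN, hVo, hqV⟩ := _root_.mem_nhds_iff.1 N
  -- first crossing: `S(r2)` and `S(g)`, `g` near `r1`
  have hc1 : ContinuousAt (fun t => r2 + cis t) θ :=
    (continuous_const.add continuous_cis).continuousAt
  -- `cr ≠ 0` near `(q, r1)`
  have hcr0 : cr (cis θ) (r2 + cis θ - r1) ≠ 0 := by
    have := cr_ne (z := q) (c := r2) (q := r1) (by rw [dist_comm]; exact hr2)
      (by rw [dist_comm]; exact hr1) (Ne.symm hne) (fun h3 => hna (by linear_combination h3))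
    rwa [← hqθ, add_sub_cancel_left] at this
  -- near `(q, r1)`: `x` is not on the line of `g` and `r2`
  have cont3 : Tendsto (fun w : ℂ × ℂ => w.2 + r2 - 2 * w.1) (𝓝 (q, r1)) (𝓝 (r1 + r2 - 2 * q)) := by
    have hc : Continuous fun w : ℂ × ℂ => w.2 + r2 - 2 * w.1 := by fun_prop
    exact hc.tendsto (q, r1)
  have m3 : ∀ᶠ w in 𝓝 (q, r1), w.2 + r2 - 2 * w.1 ≠ 0 :=
    cont3.eventually_ne (fun h3 => hna (by linear_combination h3))
  rw [nhds_prod_eq] at m3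
  obtain ⟨A3, hA3, B3, hB3, hm3⟩ := eventually_prod_iff.1 m3
  obtain ⟨V3, hV3N, hV3o, hqV3⟩ := _root_.mem_nhds_iff.1 hA3
  have hpre : (fun t => r2 + cis t) ⁻¹' (V ∩ V3) ∈ 𝓝 θ :=
    hc1.preimage_mem_nhds (by rw [hqθ]; exact (hVo.inter hV3o).mem_nhds ⟨hqV, hqV3⟩)
  obtain ⟨η, hη, hball⟩ := Metric.mem_nhds_iff.1 hpre
  have hcross := crossing (c := r2) (q₀ := r1) (t0 := θ)
    (by rw [hqθ, dist_comm]; exact hr1) hcr0 hη
  obtain ⟨y1, ⟨⟨⟨⟨t, ht, hty⟩, hyB1⟩, hyB3⟩, hyne⟩, hy1E⟩ := mem_closure_iff_nhds.1 hY1 _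
    (((hcross.and hB1).and hB3).and (eventually_ne_nhds hne))
  have hx1V : r2 + cis t ∈ V ∩ V3 := hball (by rw [mem_ball, Real.dist_eq]; exact ht)
  set x1 : ℂ := r2 + cis t with hx1
  have hx1r2 : dist x1 r2 = 1 := dist_add_cis _ _
  have hx1y1 : dist x1 y1 = 1 := hty
  -- second crossing: `S(y1)` and `S(g)`, `g` near `r2`
  obtain ⟨φ, hφ⟩ := exists_cis (u := x1 - y1) (by rw [← dist_eq_norm]; exact hx1y1)
  have hx1φ : y1 + cis φ = x1 := by rw [← hφ]; ring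
  have hcr1 : cr (cis φ) (y1 + cis φ - r2) ≠ 0 := by
    have h3 : y1 + r2 - 2 * x1 ≠ 0 := hm3 (hV3N hx1V.2) hyB3
    have := cr_ne (z := x1) (c := y1) (q := r2) hx1y1 hx1r2 hyne
      (fun h4 => h3 (by linear_combination h4))
    rw [hx1φ, ← hφ]; exact this
  have hc2 : ContinuousAt (fun t => y1 + cis t) φ :=
    (continuous_const.add continuous_cis).continuousAt
  have hpre2 : (fun t => y1 + cis t) ⁻¹' V ∈ 𝓝 φ :=
    hc2.preimage_mem_nhds (by rw [hx1φ]; exact hVo.mem_nhds hx1V.1)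
  obtain ⟨η2, hη2, hball2⟩ := Metric.mem_nhds_iff.1 hpre2
  have hcross2 := crossing (c := y1) (q₀ := r2) (t0 := φ)
    (by rw [hx1φ]; exact hx1r2) hcr1 hη2
  obtain ⟨y2, ⟨⟨t2, ht2, hty2⟩, hyB2⟩, hy2E⟩ := mem_closure_iff_nhds.1 hY2 _
    (hcross2.and hB2)
  have hxV : y1 + cis t2 ∈ V := hball2 (by rw [mem_ball, Real.dist_eq]; exact ht2)
  obtain ⟨k1, ⟨k2, k3⟩, k4, k5⟩ := hVN hxV
  obtain ⟨c, hc⟩ := h.ne (y1 + cis t2)
  rcases hsub (k1 hc) with hc1' | hc2'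
  · refine line_free h hy1E.1 (t := c) ?_ ?_ k2 (fun h4 => hm1 k4 hyB1 ?_) (h.sub _ hc)
    · filter_upwards [hy1E.2] with r hr
      rw [hr]; exact hc1'
    · rw [dist_comm]; exact dist_add_cis _ _
    · show y1 + cis t2 + p1 - 2 * y1 = 0
      linear_combination h4
  · refine line_free h hy2E.1 (t := c) ?_ (by rw [dist_comm]; exact hty2) k3 (fun h4 => hm2 k5 hyB2 ?_) (h.sub _ hc)
    · filter_upwards [hy2E.2] with r hr
      rw [hr]; exact hc2'
    · show y1 + cis t2 + p2 - 2 * y2 = 0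
      linear_combination h4

/-! ### (carry) -/

/-- a colour which is present at all generic times of both sides is present near `s` -/
theorem solid_of_sides (h : Irr U T) {s : ℝ} {p : ℂ} {d : ℝ} {c : Fin 6} {G : Set ℝ} (hG : Dense G)
    (hl : ∀ᶠ τ in 𝓝[<] s, τ ∈ G → c ∈ T (pt p (τ + d)))
    (hr : ∀ᶠ τ in 𝓝[>] s, τ ∈ G → c ∈ T (pt p (τ + d))) :
    ∀ᶠ τ in 𝓝 s, c ∈ T (pt p (τ + d)) := by
  have h1 : ∀ᶠ τ in 𝓝 s, τ ≠ s → τ ∈ G → c ∈ T (pt p (τ + d)) := by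
    rw [eventually_nhdsWithin_iff] at hl hr
    filter_upwards [hl, hr] with τ a1 a2 hne hτ
    rcases lt_or_gt_of_ne hne with h2 | h2
    · exact a1 h2 hτ
    · exact a2 h2 hτ
  obtain ⟨O, hO, hOo, hsO⟩ := _root_.mem_nhds_iff.1 h1
  have hcl : IsClosed {τ : ℝ | c ∈ T (pt p (τ + d))} := by
    have h2 : Continuous fun τ : ℝ => pt p (τ + d) := (continuous_pt p).comp (by fun_prop)
    exact (h.closed c).preimage h2
  have hopen : IsOpen (O ∩ {s}ᶜ) := hOo.inter isOpen_compl_singleton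
  filter_upwards [hOo.mem_nhds hsO] with τ hτ
  have h3 : τ ∈ closure (O ∩ {s}ᶜ ∩ G) := by
    have h4 : τ ∈ closure (O ∩ {s}ᶜ) := by
      rw [mem_closure_iff_nhds]
      intro W hW
      have h5 : W ∩ O ∈ 𝓝 τ := inter_mem hW (hOo.mem_nhds hτ)
      obtain ⟨w, hw, hws⟩ := (infinite_of_mem_nhds τ h5).exists_notMem_finset {s}
      exact ⟨w, hw.1, hw.2, fun h6 => hws (by simpa using h6)⟩
    have h7 : closure (O ∩ {s}ᶜ) ⊆ closure (O ∩ {s}ᶜ ∩ G) := by
      refine closure_minimal ?_ isClosed_closure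
      exact hG.open_subset_closure_inter hopen
    exact h7 h4
  refine hcl.closure_subset_iff.2 ?_ h3
  rintro w ⟨⟨hw1, hw2⟩, hw3⟩
  exact hO hw1 hw2 hw3

/-- **(carry)** -/
theorem carry (h : Irr U T) {z : ℂ} {s : ℝ} {p : Option (Fin 6)} {j : Fin 6} {c : Fin 6} {v : ℂ}
    (hl : ¬ ∃ᶠ τ in 𝓝[<] s, JGen T z s τ ∧ c ∉ st T z s τ p j)
    (hr : ¬ ∃ᶠ τ in 𝓝[>] s, JGen T z s τ ∧ c ∉ st T z s τ p j)
    (hv : dist v (pt (npt z s p) (s + ((j.val : ℤ) : ℝ))) = 1) (h1 : v ≠ npt z s p)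
    (h2 : v + npt z s p ≠ 2 * pt (npt z s p) (s + ((j.val : ℤ) : ℝ))) : c ∉ T v := by
  intro hc
  rw [not_frequently] at hl hr
  have h3 : ∀ᶠ τ in 𝓝 s, c ∈ T (pt (npt z s p) (τ + ((j.val : ℤ) : ℝ))) := by
    refine solid_of_sides h (jgen_dense h z s) (hl.mono fun τ hτ hg => ?_)
      (hr.mono fun τ hτ hg => ?_)
    · by_contra h4
      exact hτ ⟨hg, h4⟩
    · by_contra h4
      exact hτ ⟨hg, h4⟩
  have h4 : ∀ᶠ t in 𝓝 (s + ((j.val : ℤ) : ℝ)), c ∈ T (pt (npt z s p) t) := by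
    have h5 : Tendsto (fun t : ℝ => t - ((j.val : ℤ) : ℝ)) (𝓝 (s + ((j.val : ℤ) : ℝ))) (𝓝 s) := by
      have hcont : Continuous fun t : ℝ => t - ((j.val : ℤ) : ℝ) := by fun_prop
      have := hcont.tendsto (s + ((j.val : ℤ) : ℝ))
      rwa [add_sub_cancel_right] at this
    filter_upwards [h5.eventually h3] with t ht
    rwa [sub_add_cancel] at ht
  exact line_free h (dist_pt _ _) (ev_circle _ h4) (by rw [dist_comm]; exact hv) h1 h2
    (h.sub _ hc)

theorem pt_inj' {p : ℂ} {a b : ℝ} (h : pt p a = pt p b) : ∃ n : ℤ, a - b = 6 * n := by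
  unfold pt at h
  exact uv_inj (add_left_cancel h)

/-! ### The sets of frequent states -/

instance : Finite State := by unfold State; infer_instance

/-- the states which occur arbitrarily near `s` on the left -/
def QL (T : ℂ → Set (Fin 6)) (z : ℂ) (s : ℝ) : Set State :=
  {σ | ∃ᶠ τ in 𝓝[<] s, JGen T z s τ ∧ st T z s τ = σ}

/-- the states which occur arbitrarily near `s` on the right -/
def QR (T : ℂ → Set (Fin 6)) (z : ℂ) (s : ℝ) : Set State :=
  {σ | ∃ᶠ τ in 𝓝[>] s, JGen T z s τ ∧ st T z s τ = σ}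

theorem exists_state {F : Filter ℝ} {z : ℂ} {s : ℝ} {P : State → Prop}
    (h : ∃ᶠ τ in F, JGen T z s τ ∧ P (st T z s τ)) :
    ∃ σ, P σ ∧ ∃ᶠ τ in F, JGen T z s τ ∧ st T z s τ = σ := by
  by_contra hcon
  push Not at hcon
  have h1 : ∀ σ : State, ∀ᶠ τ in F, ¬ (JGen T z s τ ∧ st T z s τ = σ ∧ P σ) := by
    intro σ
    by_cases hσ : P σ
    · have h2 := hcon σ hσ
      filter_upwards [h2] with τ hτ
      rintro ⟨a, b, -⟩
      exact hτ a b
    · exact Eventually.of_forall fun τ hτ => hσ hτ.2.2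
  obtain ⟨τ, ⟨a, b⟩, hτ⟩ := (h.and_eventually (eventually_all.2 h1)).exists
  exact hτ (st T z s τ) ⟨a, rfl, b⟩

/-- the rules (carry) and (R7) between the frequent states -/
structure IsoR (N : Option (Fin 6) → Set (Fin 6)) (Q : Set State) : Prop where
  cz : ∀ k c, (∀ σ ∈ Q, c ∈ σ none k) → c ∉ N (some (k + 1)) ∧ c ∉ N (some (k - 1))
  cv : ∀ k i c, i ≠ k → i ≠ k + 3 → (∀ σ ∈ Q, c ∈ σ (some k) (k + 3)) → c ∉ N (some i)
  cr : ∀ k c, (∀ σ ∈ Q, c ∈ σ (some k) (k + 2)) → c ∉ N none ∧ c ∉ N (some (k + 2))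
  cl : ∀ k c, (∀ σ ∈ Q, c ∈ σ (some k) (k - 2)) → c ∉ N none ∧ c ∉ N (some (k - 2))
  co : ∀ k c, (∀ σ ∈ Q, c ∈ σ (some k) (k + 1)) → c ∉ N (some (k + 1))
  cp : ∀ k c, (∀ σ ∈ Q, c ∈ σ (some k) (k - 1)) → c ∉ N (some (k - 1))
  rz : ∀ σ ∈ Q, ∀ σ' ∈ Q, ∀ k i, ¬ σ none i ⊆ σ' (some k) (k + 3)
  rv : ∀ σ ∈ Q, ∀ σ' ∈ Q, ∀ k i, ¬ σ (some k) i ⊆ σ' none k
  rr : ∀ σ ∈ Q, ∀ σ' ∈ Q, ∀ k i, ¬ σ (some (k + 1)) i ⊆ σ' (some k) (k + 2)
  rl : ∀ σ ∈ Q, ∀ σ' ∈ Q, ∀ k i, ¬ σ (some (k - 1)) i ⊆ σ' (some k) (k - 2)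

/-- (carry) between frequent states and one point `v` -/
theorem carryQ (h : Irr U T) {z : ℂ} {s : ℝ} {p : Option (Fin 6)} {j : Fin 6} {n : ℤ} {c : Fin 6}
    {v : ℂ} (hj : (j.val : ℤ) % 6 = n % 6) (hc : ∀ σ ∈ QL T z s ∪ QR T z s, c ∈ σ p j)
    (hv : dist v (pt (npt z s p) (s + n)) = 1) (h1 : v ≠ npt z s p)
    (h2 : v + npt z s p ≠ 2 * pt (npt z s p) (s + n)) : c ∉ T v := by
  rw [← pt_cong (npt z s p) s hj] at hv h2
  refine carry h (p := p) (j := j) (fun hf => ?_) (fun hf => ?_) hv h1 h2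
  · obtain ⟨σ, hσ, hq⟩ := exists_state (P := fun σ => c ∉ σ p j) hf
    exact hσ (hc σ (Or.inl hq))
  · obtain ⟨σ, hσ, hq⟩ := exists_state (P := fun σ => c ∉ σ p j) hf
    exact hσ (hc σ (Or.inr hq))

theorem freq_of_mem {z : ℂ} {s : ℝ} {σ : State} (hσ : σ ∈ QL T z s ∪ QR T z s) :
    ∃ᶠ τ in 𝓝 s, τ ≠ s ∧ JGen T z s τ ∧ st T z s τ = σ := by
  rcases hσ with hσ | hσ
  · have h1 : ∃ᶠ τ in 𝓝[<] s, τ ≠ s ∧ JGen T z s τ ∧ st T z s τ = σ :=
      (hσ.and_eventually self_mem_nhdsWithin).mono fun τ hτ => ⟨ne_of_lt hτ.2, hτ.1⟩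
    exact h1.filter_mono nhdsWithin_le_nhds
  · have h1 : ∃ᶠ τ in 𝓝[>] s, τ ≠ s ∧ JGen T z s τ ∧ st T z s τ = σ :=
      (hσ.and_eventually self_mem_nhdsWithin).mono fun τ hτ => ⟨ne_of_gt hτ.2, hτ.1⟩
    exact h1.filter_mono nhdsWithin_le_nhds

/-- (R7) between frequent states: `q` is the point of `S(p)` in the direction `s + n` -/
theorem r7Q (h : Irr U T) {z : ℂ} {s : ℝ} {p q : Option (Fin 6)} {j i : Fin 6} {n : ℤ}
    (hj : (j.val : ℤ) % 6 = n % 6) (hq : npt z s q = pt (npt z s p) (s + n)) {σ σ' : State}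
    (hσ : σ ∈ QL T z s ∪ QR T z s) (hσ' : σ' ∈ QL T z s ∪ QR T z s) : ¬ σ q i ⊆ σ' p j := by
  intro hsub
  have hcl : npt z s q ∈ closure (Ex T (npt z s p) (σ' p j)) := by
    rw [hq]
    refine mem_closure_ex ((freq_of_mem hσ').mono ?_)
    rintro τ ⟨-, hg, rfl⟩
    exact ⟨(hg p) n, (st_eq T z s τ p j hj).symm⟩
  have hnear : ∀ᶠ τ in 𝓝 s, |τ - s| < 1 := by
    have := Metric.ball_mem_nhds s one_pos
    filter_upwards [this] with τ hτ
    rwa [Metric.mem_ball, Real.dist_eq] at hτ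
  obtain ⟨τ, ⟨hne, hg, rfl⟩, hτ⟩ := ((freq_of_mem hσ).and_eventually hnear).exists
  -- the point of `S(q)`
  set x := pt (npt z s q) (τ + ((i.val : ℤ) : ℝ)) with hx
  have hpq : npt z s p = pt (npt z s q) (s + n + 3) := by rw [hq]; exact (pt_back _ _).symm
  have key : ∀ e : ℤ, pt (npt z s q) (s + n + 3 * e) ≠ x := by
    intro e h3
    obtain ⟨m, hm⟩ := pt_inj' h3
    have h4 : τ - s = ((n + 3 * e - i.val - 6 * m : ℤ) : ℝ) := by push_cast at hm ⊢; linarith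
    rw [h4] at hτ
    have h5 : |(n + 3 * e - i.val - 6 * m : ℤ)| < 1 := by exact_mod_cast hτ
    have h6 : (n + 3 * e - i.val - 6 * m : ℤ) = 0 := Int.abs_lt_one_iff.1 h5
    rw [h6] at h4
    apply hne
    have h7 : ((0 : ℤ) : ℝ) = 0 := Int.cast_zero
    rw [h7] at h4
    linarith
  refine r7 h hcl (dist_pt _ _) (x := x) (fun h3 => ?_) (fun h3 => ?_) hsub
  · apply key 1
    rw [h3, hpq]
    congr 1; push_cast; ring
  · apply key 0
    have h4 : pt (npt z s q) (s + n + 3) = 2 * npt z s q - pt (npt z s q) (s + n) := pt_three _ _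
    rw [hpq, h4] at h3
    have e0 : s + (n : ℝ) + 3 * ((0 : ℤ) : ℝ) = s + n := by push_cast; ring
    rw [e0]
    linear_combination -h3

/-! ### All fields -/

theorem off {p q v : ℂ} (hv : dist v p = 1) (hq : dist q p = 1) : v ≠ p ∧ v + p ≠ 2 * q := by
  obtain ⟨h1, h2⟩ := tri hq hv
  exact ⟨fun h => h1 h.symm, fun h => h2 (by rw [← h]; ring)⟩

theorem npt_some (z : ℂ) (s : ℝ) (k : Fin 6) : npt z s (some k) = pt z (s + ((k.val : ℤ) : ℝ)) := rfl

theorem dist_add_one (z : ℂ) (a : ℝ) : dist (pt z (a + 1)) (pt z a) = 1 := by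
  rw [dist_comm]; exact dist_pt_one z a

theorem dist_sub_one (z : ℂ) (a : ℝ) : dist (pt z (a - 1)) (pt z a) = 1 := by
  have h := dist_pt_one z (a - 1)
  rwa [sub_add_cancel] at h

theorem node_add (z : ℂ) (s : ℝ) (k : Fin 6) :
    npt z s (some (k + 1)) = pt z (s + ((k.val : ℤ) : ℝ) + 1) := by
  rw [npt_eq z s (k + 1) (fin_add1 k)]
  congr 1; push_cast; ring

theorem node_sub (z : ℂ) (s : ℝ) (k : Fin 6) :
    npt z s (some (k - 1)) = pt z (s + ((k.val : ℤ) : ℝ) - 1) := by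
  rw [npt_eq z s (k - 1) (fin_sub1 k)]
  congr 1; push_cast; ring

theorem node_add2 (z : ℂ) (s : ℝ) (k : Fin 6) :
    npt z s (some (k + 2)) = pt z (s + ((k.val : ℤ) : ℝ) + 2) := by
  rw [npt_eq z s (k + 2) (fin_add2 k)]
  congr 1; push_cast; ring

theorem node_sub2 (z : ℂ) (s : ℝ) (k : Fin 6) :
    npt z s (some (k - 2)) = pt z (s + ((k.val : ℤ) : ℝ) - 2) := by
  rw [npt_eq z s (k - 2) (fin_sub2 k)]
  congr 1; push_cast; ring

/-- **All rules (carry) and (R7) between the frequent states of the seven nodes.** -/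
theorem isoR (h : Irr U T) (z : ℂ) (s : ℝ) : IsoR (nd T z s) (QL T z s ∪ QR T z s) := by
  have hint : ∀ (k : Fin 6) (e : ℤ), s + (((k.val : ℤ) + e : ℤ) : ℝ) = s + ((k.val : ℤ) : ℝ) + e := by
    intro k e; push_cast; ring
  refine ⟨fun k c hc => ?_, fun k i c hik hik3 hc => ?_, fun k c hc => ?_, fun k c hc => ?_,
    fun k c hc => ?_, fun k c hc => ?_, fun σ hσ σ' hσ' k i => ?_, fun σ hσ σ' hσ' k i => ?_,
    fun σ hσ σ' hσ' k i => ?_, fun σ hσ σ' hσ' k i => ?_⟩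
  · -- cz
    have hq : dist (pt (npt z s none) (s + ((k.val : ℤ) : ℝ))) (npt z s none) = 1 := dist_pt _ _
    constructor
    · have hv : dist (npt z s (some (k + 1))) (npt z s none) = 1 := dist_pt _ _
      obtain ⟨h1, h2⟩ := off hv hq
      refine carryQ h (p := none) (j := k) (n := k.val) rfl hc ?_ h1 h2
      rw [node_add]
      exact dist_add_one z _
    · have hv : dist (npt z s (some (k - 1))) (npt z s none) = 1 := dist_pt _ _
      obtain ⟨h1, h2⟩ := off hv hq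
      refine carryQ h (p := none) (j := k) (n := k.val) rfl hc ?_ h1 h2
      rw [node_sub]
      exact dist_sub_one z _
  · -- cv
    have hq : pt (npt z s (some k)) (s + (((k.val : ℤ) + 3 : ℤ) : ℝ)) = z := by
      rw [hint k 3]
      push_cast
      exact pt_back z _
    refine carryQ h (p := some k) (j := k + 3) (n := k.val + 3) (fin_add3 k) hc ?_ ?_ ?_
    · rw [hq]; exact dist_pt _ _
    · intro h3
      obtain ⟨m, hm⟩ := pt_inj' (show pt z (s + ((i.val : ℤ) : ℝ)) = pt z (s + ((k.val : ℤ) : ℝ))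
        from h3)
      have h4 : ((i.val : ℤ) : ℝ) - ((k.val : ℤ) : ℝ) = 6 * m := by linarith
      have h5 : (i.val : ℤ) - k.val = 6 * m := by exact_mod_cast h4
      apply hik
      apply Fin.ext
      omega
    · rw [hq]
      intro h3
      have h3' : pt z (s + ((i.val : ℤ) : ℝ)) = pt z (s + ((k.val : ℤ) : ℝ) + 3) := by
        rw [pt_three]
        have e : npt z s (some i) + npt z s (some k) = pt z (s + ((i.val : ℤ) : ℝ)) +
          pt z (s + ((k.val : ℤ) : ℝ)) := rfl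
        rw [e] at h3
        linear_combination h3
      obtain ⟨m, hm⟩ := pt_inj' h3'
      have h4 : ((i.val : ℤ) : ℝ) - ((k.val : ℤ) : ℝ) - 3 = 6 * m := by linarith
      have h5 : (i.val : ℤ) - k.val - 3 = 6 * m := by exact_mod_cast h4
      apply hik3
      have h6 := fin_add3 k
      apply Fin.ext
      have h7 : (i.val : ℤ) % 6 = (((k + 3 : Fin 6).val : ℤ)) % 6 := by omega
      omega
  · -- cr
    have hq : pt (npt z s (some k)) (s + (((k.val : ℤ) + 2 : ℤ) : ℝ)) =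
        pt z (s + ((k.val : ℤ) : ℝ) + 1) := by
      rw [hint k 2]
      push_cast
      exact pt_right z _
    have hqp : dist (pt (npt z s (some k)) (s + (((k.val : ℤ) + 2 : ℤ) : ℝ))) (npt z s (some k)) = 1 :=
      dist_pt _ _
    constructor
    · have hv : dist z (npt z s (some k)) = 1 := by rw [dist_comm]; exact dist_pt _ _
      obtain ⟨h1, h2⟩ := off hv hqp
      refine carryQ h (p := some k) (j := k + 2) (n := k.val + 2) (fin_add2 k) hc ?_ h1 h2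
      rw [hq, dist_comm]; exact dist_pt _ _
    · have e1 := node_add2 z s k
      obtain ⟨h1, h2⟩ := pt_off z (s + ((k.val : ℤ) : ℝ))
      refine carryQ h (p := some k) (j := k + 2) (n := k.val + 2) (fin_add2 k) hc ?_ ?_ ?_
      · rw [hq, e1]
        have h3 := dist_add_one z (s + ((k.val : ℤ) : ℝ) + 1)
        have e2 : s + ((k.val : ℤ) : ℝ) + 1 + 1 = s + ((k.val : ℤ) : ℝ) + 2 := by ring
        rwa [e2] at h3
      · rw [e1]; exact h1
      · rw [e1, hq]; exact h2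
  · -- cl
    have hq : pt (npt z s (some k)) (s + (((k.val : ℤ) - 2 : ℤ) : ℝ)) =
        pt z (s + ((k.val : ℤ) : ℝ) - 1) := by
      have e : s + (((k.val : ℤ) - 2 : ℤ) : ℝ) = s + ((k.val : ℤ) : ℝ) - 2 := by push_cast; ring
      rw [e]
      exact pt_left z _
    have hqp : dist (pt (npt z s (some k)) (s + (((k.val : ℤ) - 2 : ℤ) : ℝ))) (npt z s (some k)) = 1 :=
      dist_pt _ _
    constructor
    · have hv : dist z (npt z s (some k)) = 1 := by rw [dist_comm]; exact dist_pt _ _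
      obtain ⟨h1, h2⟩ := off hv hqp
      refine carryQ h (p := some k) (j := k - 2) (n := k.val - 2) (fin_sub2 k) hc ?_ h1 h2
      rw [hq, dist_comm]; exact dist_pt _ _
    · have e1 := node_sub2 z s k
      obtain ⟨h1, h2⟩ := pt_off z (s + ((k.val : ℤ) : ℝ) - 2)
      have e3 : s + ((k.val : ℤ) : ℝ) - 2 + 2 = s + ((k.val : ℤ) : ℝ) := by ring
      have e4 : s + ((k.val : ℤ) : ℝ) - 2 + 1 = s + ((k.val : ℤ) : ℝ) - 1 := by ring
      rw [e3] at h1 h2
      rw [e4] at h2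
      refine carryQ h (p := some k) (j := k - 2) (n := k.val - 2) (fin_sub2 k) hc ?_ ?_ ?_
      · rw [hq, e1]
        have h3 := dist_sub_one z (s + ((k.val : ℤ) : ℝ) - 1)
        have e2 : s + ((k.val : ℤ) : ℝ) - 1 - 1 = s + ((k.val : ℤ) : ℝ) - 2 := by ring
        rwa [e2] at h3
      · rw [e1]; exact fun h5 => h1 h5.symm
      · rw [e1, hq]; exact fun h5 => h2 (by rw [← h5]; exact add_comm _ _)
  · -- co
    have hqp : dist (pt (npt z s (some k)) (s + (((k.val : ℤ) + 1 : ℤ) : ℝ))) (npt z s (some k)) = 1 :=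
      dist_pt _ _
    have hv : dist (npt z s (some (k + 1))) (npt z s (some k)) = 1 := by
      rw [node_add]; exact dist_add_one z _
    obtain ⟨h1, h2⟩ := off hv hqp
    refine carryQ h (p := some k) (j := k + 1) (n := k.val + 1) (fin_add1 k) hc ?_ h1 h2
    rw [node_add, hint k 1, npt_some]
    push_cast
    have e : pt (pt z (s + (k.val : ℝ))) (s + (k.val : ℝ) + 1) =
        pt z (s + (k.val : ℝ) + 1) + (pt z (s + (k.val : ℝ)) - z) := by
      unfold pt; ring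
    rw [e]
    have h5 := dist_pt z (s + (k.val : ℝ))
    rw [dist_eq_norm] at h5 ⊢
    rw [← h5, ← norm_neg]; congr 1; ring
  · -- cp
    have hqp : dist (pt (npt z s (some k)) (s + (((k.val : ℤ) - 1 : ℤ) : ℝ))) (npt z s (some k)) = 1 :=
      dist_pt _ _
    have hv : dist (npt z s (some (k - 1))) (npt z s (some k)) = 1 := by
      rw [node_sub]; exact dist_sub_one z _
    obtain ⟨h1, h2⟩ := off hv hqp
    refine carryQ h (p := some k) (j := k - 1) (n := k.val - 1) (fin_sub1 k) hc ?_ h1 h2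
    rw [node_sub, npt_some]
    have e0 : s + (((k.val : ℤ) - 1 : ℤ) : ℝ) = s + ((k.val : ℤ) : ℝ) - 1 := by push_cast; ring
    rw [e0]
    have e : pt (pt z (s + ((k.val : ℤ) : ℝ))) (s + ((k.val : ℤ) : ℝ) - 1) =
        pt z (s + ((k.val : ℤ) : ℝ) - 1) + (pt z (s + ((k.val : ℤ) : ℝ)) - z) := by
      unfold pt; ring
    rw [e]
    have h5 := dist_pt z (s + ((k.val : ℤ) : ℝ))
    rw [dist_eq_norm] at h5 ⊢
    rw [← h5, ← norm_neg]; congr 1; ring
  · -- rz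
    refine r7Q h (p := some k) (q := none) (n := k.val + 3) (fin_add3 k) ?_ hσ hσ'
    rw [hint k 3]
    push_cast
    exact (pt_back z _).symm
  · -- rv
    exact r7Q h (p := none) (q := some k) (n := k.val) rfl rfl hσ hσ'
  · -- rr
    refine r7Q h (p := some k) (q := some (k + 1)) (n := k.val + 2) (fin_add2 k) ?_ hσ hσ'
    rw [node_add, hint k 2]
    push_cast
    exact (pt_right z _).symm
  · -- rl
    refine r7Q h (p := some k) (q := some (k - 1)) (n := k.val - 2) (fin_sub2 k) ?_ hσ hσ'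
    rw [node_sub]
    have e : s + (((k.val : ℤ) - 2 : ℤ) : ℝ) = s + ((k.val : ℤ) : ℝ) - 2 := by push_cast; ring
    rw [e]
    exact (pt_left z _).symm

end Vale.Agent.P032.H93
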